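import Mathlib
import Vale.Agent.P123.Defs
import Vale.Agent.P123.Upper

namespace Vale.Agent.Results.P123.Main

open Vale.Agent.P123

/-- Crouzeix's conjecture: the least admissible constant is exactly 2. -/
theorem result.{u} : IsLeast {C : ℝ | IsCrouzeixBound.{u} C} 2 :=
  ⟨fun _ _ _ _ _ A P => crouzeix A P, fun C hC => two_le_of_bound C hC⟩

end Vale.Agent.Results.P123.Main
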